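import Vale.Agent.P042.TT.Spec
import Vale.Agent.P042.SS.Pihat

set_option autoImplicit false

/-!
CRT reindexing of sums over reduced fractions (used by the blocks SUM and TAIL).
-/

namespace Vale.Agent.P042.TT.Crt

open Finset Vale.Agent.P042.SS

variable {α : Type*} [AddCommMonoid α]

/-- CRT for sums over reduced residues, two variables -/
lemma crt_F (F : ℤ → ℤ → α) (D1 D2 : ℕ) (h1 : 1 ≤ D1) (h2 : 1 ≤ D2)
    (hp1 : ∀ n m, F (n + D1) m = F n m) (hp2 : ∀ n m, F n (m + D2) = F n m) (u1 u2 : ℤ)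
    (hu : u1 * D2 + u2 * D1 = 1) :
    ∑ a ∈ (range (D1 * D2)).filter (Nat.Coprime (D1 * D2)), F (a * u1) (a * u2) =
      ∑ b ∈ (range D1).filter (Nat.Coprime D1), ∑ c ∈ (range D2).filter (Nat.Coprime D2),
        F b c := by
  have hD1 : (0 : ℤ) < D1 := by exact_mod_cast h1
  have hD2 : (0 : ℤ) < D2 := by exact_mod_cast h2
  have hD : (0 : ℤ) < (D1 : ℤ) * D2 := mul_pos hD1 hD2
  have hF1 : ∀ n m, F (n % D1) m = F n m := fun n m =>
    per_emod (fun n => F n m) D1 (fun n => hp1 n m) n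
  have hF2 : ∀ n m, F n (m % D2) = F n m := fun n m => per_emod (F n) D2 (hp2 n) m
  have c1 : IsCoprime (D1 : ℤ) u1 := ⟨u2, D2, by linarith⟩
  have c2 : IsCoprime (D2 : ℤ) u2 := ⟨u1, D1, by linarith⟩
  have c12 : IsCoprime (D1 : ℤ) (D2 : ℤ) := ⟨u2, u1, by linarith⟩
  rw [← Finset.sum_product']
  have toN : ∀ {m : ℤ} {D : ℕ}, (0 : ℤ) < D → (((m % (D : ℤ)).toNat : ℕ) : ℤ) = m % (D : ℤ) :=
    fun h => Int.toNat_of_nonneg (Int.emod_nonneg _ h.ne')
  have cop_mod : ∀ (D : ℕ) (m : ℤ), 0 < (D : ℤ) → (Nat.Coprime D (m % (D : ℤ)).toNat ↔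
      IsCoprime (D : ℤ) m) := by
    intro D m hD
    rw [← Nat.isCoprime_iff_coprime, toN hD]
    constructor
    · intro h
      have := h.add_mul_left_right (m / D)
      rwa [Int.emod_add_mul_ediv] at this
    · intro h
      have := h.add_mul_left_right (-(m / D))
      have e : m + (D : ℤ) * -(m / D) = m % D := by
        rw [Int.emod_def]; ring
      rwa [e] at this
  refine Finset.sum_bij' (fun a _ => ((((a : ℤ) * u1) % D1).toNat, (((a : ℤ) * u2) % D2).toNat))
    (fun x _ => (((x.1 : ℤ) * D2 + x.2 * D1) % ((D1 * D2 : ℕ) : ℤ)).toNat) ?_ ?_ ?_ ?_ ?_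
  · intro a ha
    rw [Finset.mem_filter, Finset.mem_range] at ha
    have hc := ha.2
    rw [Nat.coprime_mul_iff_left] at hc
    rw [Finset.mem_product, Finset.mem_filter, Finset.mem_filter, Finset.mem_range,
      Finset.mem_range]
    have i1 : IsCoprime (D1 : ℤ) ((a : ℤ) * u1) :=
      (Nat.isCoprime_iff_coprime.2 hc.1).mul_right c1
    have i2 : IsCoprime (D2 : ℤ) ((a : ℤ) * u2) :=
      (Nat.isCoprime_iff_coprime.2 hc.2).mul_right c2
    have l1 := Int.emod_lt_of_pos ((a : ℤ) * u1) hD1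
    have l2 := Int.emod_lt_of_pos ((a : ℤ) * u2) hD2
    have k1 := toN (m := (a : ℤ) * u1) hD1
    have k2 := toN (m := (a : ℤ) * u2) hD2
    refine ⟨⟨?_, (cop_mod D1 _ hD1).2 i1⟩, ⟨?_, (cop_mod D2 _ hD2).2 i2⟩⟩
    · simp only
      omega
    · simp only
      omega
  · intro x hx
    rw [Finset.mem_product, Finset.mem_filter, Finset.mem_filter, Finset.mem_range,
      Finset.mem_range] at hx
    obtain ⟨⟨hx1, hc1⟩, hx2, hc2⟩ := hx
    have hD' : (0 : ℤ) < ((D1 * D2 : ℕ) : ℤ) := by push_cast; exact hD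
    rw [Finset.mem_filter, Finset.mem_range]
    have l := Int.emod_lt_of_pos ((x.1 : ℤ) * D2 + x.2 * D1) hD'
    have k := toN (m := (x.1 : ℤ) * D2 + x.2 * D1) hD'
    refine ⟨by omega, ?_⟩
    rw [cop_mod _ _ hD']
    push_cast
    apply IsCoprime.mul_left
    · have : IsCoprime (D1 : ℤ) ((x.1 : ℤ) * D2) :=
        (Nat.isCoprime_iff_coprime.2 hc1).mul_right c12
      have := this.add_mul_left_right (x.2 : ℤ)
      rwa [mul_comm (D1 : ℤ) (x.2 : ℤ)] at this
    · have : IsCoprime (D2 : ℤ) ((x.2 : ℤ) * D1) :=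
        (Nat.isCoprime_iff_coprime.2 hc2).mul_right c12.symm
      have := this.add_mul_left_right (x.1 : ℤ)
      rwa [mul_comm (D2 : ℤ) (x.1 : ℤ), add_comm] at this
  · intro a ha
    rw [Finset.mem_filter, Finset.mem_range] at ha
    have hD' : (0 : ℤ) < ((D1 * D2 : ℕ) : ℤ) := by push_cast; exact hD
    have k1 := toN (m := (a : ℤ) * u1) hD1
    have k2 := toN (m := (a : ℤ) * u2) hD2
    have k := toN (m := (((((a : ℤ) * u1) % D1).toNat : ℕ) : ℤ) * D2 +
      ((((a : ℤ) * u2) % D2).toNat : ℕ) * D1) hD'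
    have hmod : ((((((a : ℤ) * u1) % D1).toNat : ℕ) : ℤ) * D2 +
      ((((a : ℤ) * u2) % D2).toNat : ℕ) * D1) % ((D1 * D2 : ℕ) : ℤ) = a := by
      rw [k1, k2]
      have e1 : ((a : ℤ) * u1 % D1) * D2 + ((a : ℤ) * u2 % D2) * D1 =
          a + (-((a : ℤ) * u1 / D1) - (a : ℤ) * u2 / D2) * ((D1 * D2 : ℕ) : ℤ) := by
        rw [Int.emod_def, Int.emod_def]
        push_cast
        linear_combination (a : ℤ) * hu
      rw [e1, Int.add_mul_emod_self_right]
      exact Int.emod_eq_of_lt (by positivity) (by exact_mod_cast ha.1)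
    have k' := k.trans hmod
    exact_mod_cast k'
  · intro x hx
    rw [Finset.mem_product, Finset.mem_filter, Finset.mem_filter, Finset.mem_range,
      Finset.mem_range] at hx
    obtain ⟨⟨hx1, hc1⟩, hx2, hc2⟩ := hx
    have hD' : (0 : ℤ) < ((D1 * D2 : ℕ) : ℤ) := by push_cast; exact hD
    have k := toN (m := (x.1 : ℤ) * D2 + x.2 * D1) hD'
    have kd := Int.emod_add_mul_ediv ((x.1 : ℤ) * D2 + x.2 * D1) ((D1 * D2 : ℕ) : ℤ)
    set t : ℤ := ((x.1 : ℤ) * D2 + x.2 * D1) % ((D1 * D2 : ℕ) : ℤ) with ht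
    set s : ℤ := ((x.1 : ℤ) * D2 + x.2 * D1) / ((D1 * D2 : ℕ) : ℤ) with hs
    push_cast at kd
    have g1 : (t * u1) % D1 = x.1 := by
      have e1 : t * u1 = x.1 + (-(x.1 : ℤ) * u2 + x.2 * u1 - D2 * s * u1) * D1 := by
        linear_combination u1 * kd + (x.1 : ℤ) * hu
      rw [e1, Int.add_mul_emod_self_right]
      exact Int.emod_eq_of_lt (by positivity) (by exact_mod_cast hx1)
    have g2 : (t * u2) % D2 = x.2 := by
      have e1 : t * u2 = x.2 + (-(x.2 : ℤ) * u1 + x.1 * u2 - D1 * s * u2) * D2 := by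
        linear_combination u2 * kd + (x.2 : ℤ) * hu
      rw [e1, Int.add_mul_emod_self_right]
      exact Int.emod_eq_of_lt (by positivity) (by exact_mod_cast hx2)
    rw [k, g1, g2]
    simp
  · intro a ha
    simp only
    rw [toN hD1, toN hD2, hF1, hF2]

/-- (1) sums over reduced fractions with denominator `D1 D2` -/
theorem crt2 (h : ℝ → α) (hper : ∀ (x : ℝ) (n : ℤ), h (x + n) = h x) (D1 D2 : ℕ) (h1 : 1 ≤ D1)
    (h2 : 1 ≤ D2) (hc : Nat.Coprime D1 D2) :
    ∑ a ∈ (range (D1 * D2)).filter (Nat.Coprime (D1 * D2)), h ((a : ℝ) / ((D1 * D2 : ℕ) : ℝ)) =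
      ∑ b ∈ (range D1).filter (Nat.Coprime D1), ∑ c ∈ (range D2).filter (Nat.Coprime D2),
        h ((b : ℝ) / D1 + (c : ℝ) / D2) := by
  obtain ⟨u2, u1, hu⟩ : ∃ u2 u1 : ℤ, u2 * D1 + u1 * D2 = 1 := Nat.isCoprime_iff_coprime.2 hc
  have hu' : u1 * D2 + u2 * D1 = 1 := by linarith
  have h1' : (D1 : ℝ) ≠ 0 := by positivity
  have h2' : (D2 : ℝ) ≠ 0 := by positivity
  have key := crt_F (fun n m : ℤ => h ((n : ℝ) / D1 + (m : ℝ) / D2)) D1 D2 h1 h2
    (fun n m => by
      have e : ((n + D1 : ℤ) : ℝ) / D1 + (m : ℝ) / D2 =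
          ((n : ℝ) / D1 + (m : ℝ) / D2) + ((1 : ℤ) : ℝ) := by
        push_cast; field_simp; ring
      simp only [e, hper])
    (fun n m => by
      have e : (n : ℝ) / D1 + ((m + D2 : ℤ) : ℝ) / D2 =
          ((n : ℝ) / D1 + (m : ℝ) / D2) + ((1 : ℤ) : ℝ) := by
        push_cast; field_simp; ring
      simp only [e, hper]) u1 u2 hu'
  simp only [Int.cast_natCast] at key
  rw [← key]
  refine Finset.sum_congr rfl fun a _ => ?_
  congr 1
  have hu'' : (u1 : ℝ) * D2 + u2 * D1 = 1 := by exact_mod_cast hu'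
  push_cast
  field_simp
  linear_combination (-(a : ℝ)) * hu''

/-- (2) fractions with denominator `D` in lowest terms -/
theorem sum_div (g : ℝ → α) (D : ℕ) (hD : 1 ≤ D) :
    ∑ d ∈ D.divisors, ∑ a ∈ (range d).filter (Nat.Coprime d), g ((a : ℝ) / d) =
      ∑ b ∈ range D, g ((b : ℝ) / D) := by
  symm
  rw [Finset.sum_sigma']
  refine Finset.sum_bij' (fun b _ => (⟨D / Nat.gcd D b, b / Nat.gcd D b⟩ : Σ _ : ℕ, ℕ))
    (fun x _ => x.2 * (D / x.1)) ?_ ?_ ?_ ?_ ?_
  · intro b hb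
    rw [Finset.mem_range] at hb
    have hg : 0 < Nat.gcd D b := Nat.gcd_pos_of_pos_left b hD
    have hgD := Nat.gcd_dvd_left D b
    have hgb := Nat.gcd_dvd_right D b
    rw [Finset.mem_sigma, Finset.mem_filter, Finset.mem_range, Nat.mem_divisors]
    refine ⟨⟨Nat.div_dvd_of_dvd hgD, by omega⟩, ?_, Nat.coprime_div_gcd_div_gcd hg⟩
    exact Nat.div_lt_div_of_lt_of_dvd hgD hb
  · rintro ⟨d, a⟩ hx
    rw [Finset.mem_sigma, Finset.mem_filter, Finset.mem_range, Nat.mem_divisors] at hx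
    obtain ⟨⟨hd, -⟩, ha, -⟩ := hx
    simp only at hd ha
    obtain ⟨m, rfl⟩ := hd
    have hd0 : 0 < d := Nat.pos_of_ne_zero (by rintro rfl; simp at hD)
    have hm0 : 0 < m := Nat.pos_of_ne_zero (by rintro rfl; simp at hD)
    simp only
    rw [Finset.mem_range, Nat.mul_div_cancel_left m hd0]
    exact Nat.mul_lt_mul_of_pos_right ha hm0
  · intro b hb
    have hg : 0 < Nat.gcd D b := Nat.gcd_pos_of_pos_left b hD
    have hgD := Nat.gcd_dvd_left D b
    have hgb := Nat.gcd_dvd_right D b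
    simp only
    rw [Nat.div_div_self hgD (by omega)]
    exact Nat.div_mul_cancel hgb
  · rintro ⟨d, a⟩ hx
    rw [Finset.mem_sigma, Finset.mem_filter, Finset.mem_range, Nat.mem_divisors] at hx
    obtain ⟨⟨hd, -⟩, ha, hc⟩ := hx
    simp only at hd ha hc
    obtain ⟨m, rfl⟩ := hd
    have hd0 : 0 < d := Nat.pos_of_ne_zero (by rintro rfl; simp at hD)
    have hm0 : 0 < m := Nat.pos_of_ne_zero (by rintro rfl; simp at hD)
    have hg : Nat.gcd (d * m) (a * m) = m := by
      rw [Nat.gcd_mul_right, Nat.Coprime.gcd_eq_one hc, one_mul]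
    simp only
    rw [Nat.mul_div_cancel_left m hd0, hg, Nat.mul_div_cancel _ hm0, Nat.mul_div_cancel _ hm0]
  · intro b hb
    have hg : 0 < Nat.gcd D b := Nat.gcd_pos_of_pos_left b hD
    have hgD := Nat.gcd_dvd_left D b
    have hgb := Nat.gcd_dvd_right D b
    have hg' : ((Nat.gcd D b : ℕ) : ℝ) ≠ 0 := by positivity
    simp only
    rw [Nat.cast_div hgD hg', Nat.cast_div hgb hg', div_div_div_cancel_right₀ hg']

/-- (3) the moduli `d q`, `d ∣ D` -/
theorem crt_div (h : ℝ → α) (hper : ∀ (x : ℝ) (n : ℤ), h (x + n) = h x) (D q : ℕ) (hD : 1 ≤ D)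
    (hq : 1 ≤ q) (hc : Nat.Coprime D q) :
    ∑ d ∈ D.divisors, ∑ a ∈ (range (d * q)).filter (Nat.Coprime (d * q)),
        h ((a : ℝ) / ((d * q : ℕ) : ℝ)) =
      ∑ b ∈ range D, ∑ c ∈ (range q).filter (Nat.Coprime q), h ((b : ℝ) / D + (c : ℝ) / q) := by
  rw [← sum_div (fun x => ∑ c ∈ (range q).filter (Nat.Coprime q), h (x + (c : ℝ) / q)) D hD]
  refine Finset.sum_congr rfl fun d hd => ?_
  rw [Nat.mem_divisors] at hd
  have hd0 : 1 ≤ d := Nat.pos_of_dvd_of_pos hd.1 hD
  exact crt2 h hper d q hd0 hq (Nat.Coprime.coprime_dvd_left hd.1 hc)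

/-- (4) the moduli `q ∏ U`, `U` a set of primes not dividing `q` -/
theorem crt_prod (h : ℝ → α) (hper : ∀ (x : ℝ) (n : ℤ), h (x + n) = h x) (q : ℕ) (hq : 1 ≤ q)
    (U : Finset ℕ) (hU : ∀ p ∈ U, p.Prime) (hc : ∀ p ∈ U, Nat.Coprime p q) :
    ∑ a ∈ (range (q * ∏ p ∈ U, p)).filter (Nat.Coprime (q * ∏ p ∈ U, p)),
        h ((a : ℝ) / ((q * ∏ p ∈ U, p : ℕ) : ℝ)) =
      ∑ b ∈ (range q).filter (Nat.Coprime q), ∑ c ∈ Finset.pi U (fun p => Ico 1 p),
        h ((b : ℝ) / q + ∑ p ∈ U.attach, (c p.1 p.2 : ℝ) / (p : ℕ)) := by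
  classical
  induction U using Finset.induction_on generalizing h with
  | empty => simp
  | @insert p U hp ih =>
    have hU' : ∀ l ∈ U, l.Prime := fun l hl => hU l (Finset.mem_insert_of_mem hl)
    have hc' : ∀ l ∈ U, Nat.Coprime l q := fun l hl => hc l (Finset.mem_insert_of_mem hl)
    have hpp : p.Prime := hU p (Finset.mem_insert_self p U)
    have hcop : Nat.Coprime (q * ∏ l ∈ U, l) p := by
      apply Nat.Coprime.mul_left
      · exact (hc p (Finset.mem_insert_self p U)).symm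
      · apply Nat.Coprime.prod_left
        intro l hl
        rw [Nat.coprime_primes (hU' l hl) hpp]
        rintro rfl
        exact hp hl
    have hset : (range p).filter (Nat.Coprime p) = Ico 1 p := by
      ext a
      simp only [Finset.mem_filter, Finset.mem_range, Finset.mem_Ico]
      constructor
      · rintro ⟨h1, h2⟩
        refine ⟨?_, h1⟩
        rcases Nat.eq_zero_or_pos a with h0 | h0
        · subst h0
          rw [Nat.coprime_zero_right] at h2
          exact absurd h2 hpp.ne_one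
        · exact h0
      · rintro ⟨h1, h2⟩
        refine ⟨h2, ?_⟩
        rw [hpp.coprime_iff_not_dvd]
        exact Nat.not_dvd_of_pos_of_lt h1 h2
    have e0 : q * ∏ l ∈ insert p U, l = (q * ∏ l ∈ U, l) * p := by
      rw [Finset.prod_insert hp]; ring
    rw [e0, crt2 h hper _ p (Nat.mul_pos hq (Finset.prod_pos fun l hl => (hU' l hl).pos))
      hpp.one_lt.le hcop]
    have ih' := ih (fun x => ∑ c ∈ (range p).filter (Nat.Coprime p), h (x + (c : ℝ) / p))
      (fun x n => by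
        refine Finset.sum_congr rfl fun c _ => ?_
        rw [show x + n + (c : ℝ) / p = (x + (c : ℝ) / p) + n by ring, hper]) hU' hc'
    rw [ih']
    refine Finset.sum_congr rfl fun b _ => ?_
    rw [Finset.pi_insert hp, Finset.sum_biUnion]
    · rw [Finset.sum_comm]
      rw [hset]
      refine Finset.sum_congr rfl fun z _ => ?_
      rw [Finset.sum_image]
      · refine Finset.sum_congr rfl fun c _ => ?_
        congr 1
        rw [Finset.attach_insert, Finset.sum_insert, Finset.sum_image]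
        · have h1 : ∀ x : ↥U, (Finset.Pi.cons U p z c (x : ℕ) (Finset.mem_insert_of_mem x.2) : ℝ) =
              (c x.1 x.2 : ℝ) := by
            intro x
            rw [Finset.Pi.cons_ne]
            rintro h
            exact hp (h ▸ x.2)
          simp only [h1, Finset.Pi.cons_same]
          ring
        · intro x _ y _ hxy
          exact Subtype.ext (by simpa using hxy)
        · simp only [Finset.mem_image, Finset.mem_attach, true_and, Subtype.exists, not_exists]
          intro x hx hxy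
          have : x = p := by simpa using congrArg Subtype.val hxy
          exact hp (this ▸ hx)
      · intro c1 _ c2 _ h12
        exact Finset.Pi.cons_injective hp h12
    · intro z1 _ z2 _ h12
      rw [Function.onFun, Finset.disjoint_left]
      intro c hc1 hc2
      rw [Finset.mem_image] at hc1 hc2
      obtain ⟨d1, -, e1⟩ := hc1
      obtain ⟨d2, -, e2⟩ := hc2
      apply h12
      have k1 : c p (Finset.mem_insert_self p U) = z1 := by
        rw [← e1, Finset.Pi.cons_same]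
      have k2 : c p (Finset.mem_insert_self p U) = z2 := by
        rw [← e2, Finset.Pi.cons_same]
      rw [← k1, k2]

end Vale.Agent.P042.TT.Crt
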