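import Vale.Agent.P042.TT.Spec
import Vale.Agent.P042.SS.MainMT

set_option autoImplicit false

/-!
Block KER: the sum over the moduli `q ∏ U`, `U ⊆ V`, is a bilinear form on the product space.
-/

namespace Vale.Agent.P042.TT.Ker

open Polynomial Finset Vale.Agent.P042.SS

/-- twisted sum of the complete sums over reduced residues -/
noncomputable def cD (f : ℤ[X]) (D : ℕ) (m : ℤ) : ℂ :=
  ∑ a ∈ (range D).filter (Nat.Coprime D), Gam f a D * e (-((m : ℝ) * ((a : ℝ) / D)))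

lemma e_shift (D : ℕ) (hD : 1 ≤ D) (m n : ℤ) :
    e (-((m : ℝ) * (((n + D : ℤ) : ℝ) / D))) = e (-((m : ℝ) * ((n : ℝ) / D))) := by
  have hD' : (D : ℝ) ≠ 0 := by positivity
  have h : -((m : ℝ) * (((n + D : ℤ) : ℝ) / D)) = -((m : ℝ) * ((n : ℝ) / D)) + ((-m : ℤ) : ℝ) := by
    push_cast
    field_simp
    ring
  rw [h, e_add_int]

lemma cD_mul (f : ℤ[X]) (D1 D2 : ℕ) (h1 : 1 ≤ D1) (h2 : 1 ≤ D2) (hc : Nat.Coprime D1 D2)
    (m : ℤ) : cD f (D1 * D2) m = cD f D1 m * cD f D2 m := by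
  obtain ⟨u2, u1, hu⟩ : ∃ u2 u1 : ℤ, u2 * D1 + u1 * D2 = 1 := Nat.isCoprime_iff_coprime.2 hc
  have hu' : u1 * D2 + u2 * D1 = 1 := by linarith
  have h1' : (D1 : ℝ) ≠ 0 := by positivity
  have h2' : (D2 : ℝ) ≠ 0 := by positivity
  have key := usum_mul (fun n => Gam f n D1 * e (-((m : ℝ) * ((n : ℝ) / D1))))
    (fun n => Gam f n D2 * e (-((m : ℝ) * ((n : ℝ) / D2)))) D1 D2 h1 h2
    (fun n => by
      have h := Gam_add_mul f n 1 D1 h1
      rw [one_mul] at h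
      simp only [h, e_shift D1 h1 m n])
    (fun n => by
      have h := Gam_add_mul f n 1 D2 h2
      rw [one_mul] at h
      simp only [h, e_shift D2 h2 m n]) u1 u2 hu'
  simp only [Int.cast_natCast] at key
  unfold cD
  rw [← key]
  refine Finset.sum_congr rfl fun a _ => ?_
  have hm := (multFam_Gam f).mul D1 D2 a u1 u2 h1 h2 hu'
  rw [hm]
  have hfrac : (a : ℝ) / ((D1 * D2 : ℕ) : ℝ) =
      (((a : ℤ) * u1 : ℤ) : ℝ) / D1 + (((a : ℤ) * u2 : ℤ) : ℝ) / D2 := by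
    have hu'' : (u1 : ℝ) * D2 + u2 * D1 = 1 := by exact_mod_cast hu'
    push_cast
    field_simp
    linear_combination (-(a : ℝ)) * hu''
  have he : e (-((m : ℝ) * ((a : ℝ) / ((D1 * D2 : ℕ) : ℝ)))) =
      e (-((m : ℝ) * ((((a : ℤ) * u1 : ℤ) : ℝ) / D1))) *
        e (-((m : ℝ) * ((((a : ℤ) * u2 : ℤ) : ℝ) / D2))) := by
    rw [← e_add, hfrac]
    congr 1
    ring
  rw [he]
  ring

lemma cD_prod (f : ℤ[X]) (q : ℕ) (hq : 1 ≤ q) (m : ℤ) (U : Finset ℕ) (hU : ∀ p ∈ U, p.Prime)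
    (hc : ∀ p ∈ U, Nat.Coprime p q) :
    cD f (q * ∏ p ∈ U, p) m = cD f q m * ∏ p ∈ U, cD f p m := by
  induction U using Finset.induction_on with
  | empty => simp
  | @insert p U hp ih =>
    have hU' : ∀ l ∈ U, l.Prime := fun l hl => hU l (Finset.mem_insert_of_mem hl)
    have hc' : ∀ l ∈ U, Nat.Coprime l q := fun l hl => hc l (Finset.mem_insert_of_mem hl)
    have hpp : p.Prime := hU p (Finset.mem_insert_self p U)
    have hcop : Nat.Coprime (q * ∏ l ∈ U, l) p := by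
      apply Nat.Coprime.mul_left
      · exact (hc p (Finset.mem_insert_self p U)).symm
      · apply Nat.Coprime.prod_left
        intro l hl
        rw [Nat.coprime_primes (hU' l hl) hpp]
        rintro rfl
        exact hp hl
    rw [Finset.prod_insert hp, Finset.prod_insert hp]
    have h1 : q * (p * ∏ l ∈ U, l) = (q * ∏ l ∈ U, l) * p := by ring
    rw [h1, cD_mul f _ p (Nat.mul_pos hq (Finset.prod_pos fun l hl => (hU' l hl).pos)) hpp.one_lt.le
      hcop m, ih hU' hc']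
    ring

open Classical in
lemma usum_neg (H : ℤ → ℂ) (D : ℕ) (hD : 1 ≤ D) (hH : ∀ n, H (n + D) = H n) :
    ∑ a ∈ (range D).filter (Nat.Coprime D), H (-(a : ℤ)) =
      ∑ a ∈ (range D).filter (Nat.Coprime D), H (a : ℤ) := by
  set k : ℤ → ℂ := fun n => if IsCoprime (D : ℤ) n then H n else 0 with hk
  have hkp : ∀ n, k (n + D) = k n := by
    intro n
    simp only [hk, hH]
    have : IsCoprime (D : ℤ) (n + D) ↔ IsCoprime (D : ℤ) n := by
      have := IsCoprime.add_mul_left_right_iff (x := (D : ℤ)) (y := n) (z := 1)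
      rwa [mul_one] at this
    simp only [this]
  have key := perSum_mul_unit k D hD hkp (-1) (by exact ⟨0, -1, by ring⟩)
  rw [Finset.sum_filter, Finset.sum_filter]
  have e1 : ∀ x : ℕ, k ((x : ℤ) * (-1)) = if Nat.Coprime D x then H (-(x : ℤ)) else 0 := by
    intro x
    simp only [hk, mul_neg, mul_one]
    by_cases h : Nat.Coprime D x
    · rw [if_pos h, if_pos]
      exact (Nat.isCoprime_iff_coprime.2 h).neg_right
    · rw [if_neg h, if_neg]
      intro h'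
      apply h
      rw [← Nat.isCoprime_iff_coprime]
      have := h'.neg_right
      rwa [neg_neg] at this
  have e2 : ∀ x : ℕ, k (x : ℤ) = if Nat.Coprime D x then H (x : ℤ) else 0 := by
    intro x
    simp only [hk, Nat.isCoprime_iff_coprime]
  simp only [e1, e2] at key
  exact key

lemma cD_real (f : ℤ[X]) (D : ℕ) (hD : 1 ≤ D) (m : ℤ) :
    (starRingEnd ℂ) (cD f D m) = cD f D m := by
  have key := usum_neg (fun n => Gam f n D * e (-((m : ℝ) * ((n : ℝ) / D)))) D hD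
    (fun n => by
      have h := Gam_add_mul f n 1 D hD
      rw [one_mul] at h
      simp only [h, e_shift D hD m n])
  simp only [Int.cast_natCast] at key
  unfold cD
  rw [map_sum, ← key]
  refine Finset.sum_congr rfl fun a _ => ?_
  rw [map_mul, conj_Gam, conj_e]
  congr 2
  push_cast
  ring

lemma coprime_prime_set {p : ℕ} (hp : p.Prime) : (range p).filter (Nat.Coprime p) = Ico 1 p := by
  ext a
  simp only [Finset.mem_filter, Finset.mem_range, Finset.mem_Ico]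
  constructor
  · rintro ⟨h1, h2⟩
    refine ⟨?_, h1⟩
    rcases Nat.eq_zero_or_pos a with h0 | h0
    · subst h0
      rw [Nat.coprime_zero_right] at h2
      exact absurd h2 hp.ne_one
    · exact h0
  · rintro ⟨h1, h2⟩
    refine ⟨h2, ?_⟩
    rw [hp.coprime_iff_not_dvd]
    exact Nat.not_dvd_of_pos_of_lt h1 h2

/-! ### the residue vector of an integer -/

lemma toNat_mod (p : ℕ) (hp : 1 ≤ p) (n : ℤ) : (((n % (p : ℤ)).toNat : ℕ) : ℤ) = n % (p : ℤ) :=
  Int.toNat_of_nonneg (Int.emod_nonneg _ (by exact_mod_cast (by omega : p ≠ 0)))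

/-- residue vector -/
def rs (V : Finset ℕ) (hV : ∀ p ∈ V, p.Prime) (n : ℤ) : XS V := fun p =>
  ⟨(n % ((p : ℕ) : ℤ)).toNat, by
    have h1 := toNat_mod (p : ℕ) (hV p p.2).one_lt.le n
    have h2 := Int.emod_lt_of_pos n (show (0 : ℤ) < ((p : ℕ) : ℤ) by
      exact_mod_cast (hV p p.2).pos)
    omega⟩

lemma rs_val (V : Finset ℕ) (hV : ∀ p ∈ V, p.Prime) (n : ℤ) (p : ↥V) :
    (((rs V hV n p : Fin (p : ℕ)) : ℕ) : ℤ) = n % ((p : ℕ) : ℤ) :=
  toNat_mod (p : ℕ) (hV p p.2).one_lt.le n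

lemma rs_iff (V : Finset ℕ) (hV : ∀ p ∈ V, p.Prime) (n : ℤ) (x : XS V) :
    (∀ p : ↥V, n ≡ ((x p : ℕ) : ℤ) [ZMOD ((p : ℕ) : ℤ)]) ↔ rs V hV n = x := by
  constructor
  · intro h
    funext p
    apply Fin.ext
    have h1 := h p
    unfold Int.ModEq at h1
    have h2 : ((x p : ℕ) : ℤ) % ((p : ℕ) : ℤ) = ((x p : ℕ) : ℤ) :=
      Int.emod_eq_of_lt (by positivity) (by exact_mod_cast (x p).2)
    have h3 := rs_val V hV n p
    have h4 : (((rs V hV n p : Fin (p : ℕ)) : ℕ) : ℤ) = ((x p : ℕ) : ℤ) := by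
      rw [h3, h1, h2]
    exact_mod_cast h4
  · rintro rfl p
    rw [rs_val]
    exact (Int.mod_modEq n _).symm

/-- the kernel at two residues -/
lemma kern_rs (f : ℤ[X]) (μ : ℝ) (V : Finset ℕ) (hV : ∀ p ∈ V, p.Prime) (p : ↥V) (n n' : ℤ) :
    ((kern f μ V p (rs V hV n p) (rs V hV n' p) : ℝ) : ℂ) =
      ((μ⁻¹ : ℝ) : ℂ) * cD f p (n - n') := by
  have hp := hV p p.2
  have hp1 : 1 ≤ (p : ℕ) := hp.one_lt.le
  have hp' : ((p : ℕ) : ℝ) ≠ 0 := by positivity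
  have hr := cD_real f p hp1 (n - n')
  rw [Complex.conj_eq_iff_re] at hr
  unfold kern
  rw [← Complex.re_sum]
  have h1 : ∑ b ∈ Ico 1 (p : ℕ), Gam f b p *
      e (-((b : ℝ) * ((((rs V hV n p : Fin (p : ℕ)) : ℕ) : ℝ) -
        (((rs V hV n' p : Fin (p : ℕ)) : ℕ) : ℝ)) / ((p : ℕ) : ℝ))) = cD f p (n - n') := by
    unfold cD
    rw [coprime_prime_set hp]
    refine Finset.sum_congr rfl fun b _ => ?_
    congr 1
    have g1 : (((rs V hV n p : Fin (p : ℕ)) : ℕ) : ℝ) = (n : ℝ) - (p : ℕ) * ((n / (p : ℕ) : ℤ) : ℝ) := by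
      have h := rs_val V hV n p
      have h' : (((rs V hV n p : Fin (p : ℕ)) : ℕ) : ℤ) = n - (p : ℕ) * (n / (p : ℕ)) := by
        rw [h, Int.emod_def]
      exact_mod_cast h'
    have g2 : (((rs V hV n' p : Fin (p : ℕ)) : ℕ) : ℝ) =
        (n' : ℝ) - (p : ℕ) * ((n' / (p : ℕ) : ℤ) : ℝ) := by
      have h := rs_val V hV n' p
      have h' : (((rs V hV n' p : Fin (p : ℕ)) : ℕ) : ℤ) = n' - (p : ℕ) * (n' / (p : ℕ)) := by
        rw [h, Int.emod_def]
      exact_mod_cast h'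
    have hx : -((b : ℝ) * ((((rs V hV n p : Fin (p : ℕ)) : ℕ) : ℝ) -
        (((rs V hV n' p : Fin (p : ℕ)) : ℕ) : ℝ)) / ((p : ℕ) : ℝ)) =
        -(((n - n' : ℤ) : ℝ) * ((b : ℝ) / ((p : ℕ) : ℝ))) +
          ((b * (n / (p : ℕ) - n' / (p : ℕ)) : ℤ) : ℝ) := by
      rw [g1, g2]
      push_cast
      field_simp
      ring
    rw [hx, e_add_int]
  rw [h1]
  push_cast
  rw [hr]
  simp

/-- double sum over residue vectors -/
lemma sum_rs {X : Type*} [Fintype X] [DecidableEq X] (A : X → X → ℂ) (I I' : Finset ℤ)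
    (r : ℤ → X) (g g' : ℤ → ℂ) :
    ∑ x, ∑ y, A x y * ((∑ n ∈ I, if r n = x then g n else 0) *
      (∑ n' ∈ I', if r n' = y then g' n' else 0)) =
    ∑ n ∈ I, ∑ n' ∈ I', A (r n) (r n') * (g n * g' n') := by
  have h1 : ∀ x y, A x y * ((∑ n ∈ I, if r n = x then g n else 0) *
      (∑ n' ∈ I', if r n' = y then g' n' else 0)) =
      ∑ n ∈ I, ∑ n' ∈ I', if r n = x then (if r n' = y then A x y * (g n * g' n') else 0) else 0 := by
    intro x y
    rw [Finset.sum_mul_sum, Finset.mul_sum]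
    refine Finset.sum_congr rfl fun n _ => ?_
    rw [Finset.mul_sum]
    refine Finset.sum_congr rfl fun n' _ => ?_
    split_ifs <;> simp
  simp only [h1]
  have h2 : ∀ x, ∑ y, ∑ n ∈ I, ∑ n' ∈ I',
      (if r n = x then (if r n' = y then A x y * (g n * g' n') else 0) else 0) =
      ∑ n ∈ I, ∑ n' ∈ I', if r n = x then A x (r n') * (g n * g' n') else 0 := by
    intro x
    rw [Finset.sum_comm]
    refine Finset.sum_congr rfl fun n _ => ?_
    rw [Finset.sum_comm]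
    refine Finset.sum_congr rfl fun n' _ => ?_
    split_ifs with h
    · rw [Finset.sum_ite_eq]
      simp
    · simp
  simp only [h2]
  rw [Finset.sum_comm]
  refine Finset.sum_congr rfl fun n _ => ?_
  rw [Finset.sum_comm]
  refine Finset.sum_congr rfl fun n' _ => ?_
  rw [Finset.sum_ite_eq]
  simp

/-- product of two windowed sums -/
lemma Fw_mul_conj (G : ℤ → ℝ) (y y' : ℤ) (M M' : ℕ) (θ : ℝ) :
    Fw G y M θ * (starRingEnd ℂ) (Fw G y' M' θ) =
      ∑ n ∈ Ioc y (y + M), ∑ n' ∈ Ioc y' (y' + M'),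
        ((G n * G n' : ℝ) : ℂ) * e (-(((n - n' : ℤ) : ℝ) * θ)) := by
  unfold Fw
  rw [map_sum, Finset.sum_mul_sum]
  refine Finset.sum_congr rfl fun n _ => Finset.sum_congr rfl fun n' _ => ?_
  rw [map_mul, Complex.conj_ofReal, conj_e]
  have h : e (-(((n - n' : ℤ) : ℝ) * θ)) = e (-((n : ℝ) * θ)) * e (-(-((n' : ℝ) * θ))) := by
    rw [← e_add]
    congr 1
    push_cast
    ring
  rw [h]
  push_cast
  ring

/-- the bilinear form of a cell -/
lemma Bform_eq (f : ℤ[X]) (V : Finset ℕ) (μ : ℝ) (ν : ℕ → ℤ → ℝ) (G : ℤ → ℝ) (y y' : ℤ)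
    (M M' : ℕ) (hV : ∀ p ∈ V, p.Prime) (hw : Wts V ν)
    (hG : ∀ n, G n ≠ 0 → ∀ p ∈ V, ν p n ≠ 0) (θ : ℝ) :
    Bform (piV ν V) (kern f μ V) (fV ν V G y M 1 0 θ) (fV ν V G y' M' 1 0 θ) =
      ∑ n ∈ Ioc y (y + M), ∑ n' ∈ Ioc y' (y' + M'),
        ((G n * G n' : ℝ) : ℂ) * e (-(((n - n' : ℤ) : ℝ) * θ)) *
          ∏ p ∈ V, (1 + ((μ⁻¹ : ℝ) : ℂ) * cD f p (n - n')) := by
  classical
  have hf : ∀ (y : ℤ) (M : ℕ) (x : XS V), fV ν V G y M 1 0 θ x =
      ((∏ p : ↥V, (((p : ℕ) : ℝ) * (ν p (x p : ℕ))⁻¹) : ℝ) : ℂ) *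
        ∑ n ∈ Ioc y (y + M), if rs V hV n = x then (G n : ℂ) * e (-((n : ℝ) * θ)) else 0 := by
    intro y M x
    unfold fV
    congr 1
    rw [Finset.sum_filter]
    refine Finset.sum_congr rfl fun n _ => ?_
    have : (n ≡ 0 [ZMOD ((1 : ℕ) : ℤ)] ∧ ∀ p : ↥V, n ≡ ((x p : ℕ) : ℤ) [ZMOD ((p : ℕ) : ℤ)]) ↔
        rs V hV n = x := by
      rw [← rs_iff V hV n x]
      constructor
      · exact fun h => h.2
      · refine fun h => ⟨?_, h⟩
        rw [Nat.cast_one]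
        exact Int.modEq_one
    simp only [this]
  have hconj : ∀ (x : XS V), (starRingEnd ℂ) (fV ν V G y' M' 1 0 θ x) =
      ((∏ p : ↥V, (((p : ℕ) : ℝ) * (ν p (x p : ℕ))⁻¹) : ℝ) : ℂ) *
        ∑ n ∈ Ioc y' (y' + M'), if rs V hV n = x then (G n : ℂ) * e ((n : ℝ) * θ) else 0 := by
    intro x
    rw [hf, map_mul, Complex.conj_ofReal, map_sum]
    congr 1
    refine Finset.sum_congr rfl fun n _ => ?_
    split_ifs
    · rw [map_mul, Complex.conj_ofReal, conj_e, neg_neg]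
    · simp
  unfold Bform
  have h1 : ∀ x z : XS V,
      ((∏ i, (piV ν V i (x i) * piV ν V i (z i) * (1 + kern f μ V i (x i) (z i))) : ℝ) : ℂ) *
        (fV ν V G y M 1 0 θ x * (starRingEnd ℂ) (fV ν V G y' M' 1 0 θ z)) =
      ((∏ i : ↥V, (piV ν V i (x i) * piV ν V i (z i) * (1 + kern f μ V i (x i) (z i)) *
        ((((i : ℕ) : ℝ) * (ν i (x i : ℕ))⁻¹) * (((i : ℕ) : ℝ) * (ν i (z i : ℕ))⁻¹))) : ℝ) : ℂ) *
      ((∑ n ∈ Ioc y (y + M), if rs V hV n = x then (G n : ℂ) * e (-((n : ℝ) * θ)) else 0) *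
        ∑ n ∈ Ioc y' (y' + M'), if rs V hV n = z then (G n : ℂ) * e ((n : ℝ) * θ) else 0) := by
    intro x z
    rw [hf, hconj, Finset.prod_mul_distrib (f := fun i : ↥V => piV ν V i (x i) * piV ν V i (z i) *
      (1 + kern f μ V i (x i) (z i))), Finset.prod_mul_distrib (f := fun i : ↥V =>
        (((i : ℕ) : ℝ) * (ν i (x i : ℕ))⁻¹))]
    push_cast
    ring
  simp only [h1]
  rw [sum_rs (fun x z => ((∏ i : ↥V, (piV ν V i (x i) * piV ν V i (z i) *
    (1 + kern f μ V i (x i) (z i)) *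
      ((((i : ℕ) : ℝ) * (ν i (x i : ℕ))⁻¹) * (((i : ℕ) : ℝ) * (ν i (z i : ℕ))⁻¹))) : ℝ) : ℂ))
    (Ioc y (y + M)) (Ioc y' (y' + M')) (rs V hV) (fun n => (G n : ℂ) * e (-((n : ℝ) * θ)))
    (fun n => (G n : ℂ) * e ((n : ℝ) * θ))]
  refine Finset.sum_congr rfl fun n _ => Finset.sum_congr rfl fun n' _ => ?_
  by_cases h0 : G n = 0
  · simp [h0]
  by_cases h0' : G n' = 0
  · simp [h0']
  have hval : ∀ (m : ℤ) (p : ↥V), ν p (((rs V hV m p : Fin (p : ℕ)) : ℕ) : ℤ) = ν p m := by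
    intro m p
    rw [rs_val]
    exact per_emod (ν p) p (hw.per p p.2) m
  have hprod : ((∏ i : ↥V, (piV ν V i (rs V hV n i) * piV ν V i (rs V hV n' i) *
      (1 + kern f μ V i (rs V hV n i) (rs V hV n' i)) *
      ((((i : ℕ) : ℝ) * (ν i ((rs V hV n i : Fin (i : ℕ)) : ℕ))⁻¹) *
        (((i : ℕ) : ℝ) * (ν i ((rs V hV n' i : Fin (i : ℕ)) : ℕ))⁻¹))) : ℝ) : ℂ) =
      ∏ p ∈ V, (1 + ((μ⁻¹ : ℝ) : ℂ) * cD f p (n - n')) := by
    rw [← Finset.prod_coe_sort V (fun p => (1 + ((μ⁻¹ : ℝ) : ℂ) * cD f p (n - n')))]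
    rw [Complex.ofReal_prod]
    refine Finset.prod_congr rfl fun p _ => ?_
    rw [← kern_rs f μ V hV p n n']
    unfold piV
    rw [hval n p, hval n' p]
    have hp' : ((p : ℕ) : ℝ) ≠ 0 := by
      have := (hV p p.2).pos
      positivity
    have hn := hG n h0 p p.2
    have hn' := hG n' h0' p p.2
    rw [← Complex.ofReal_one, ← Complex.ofReal_add]
    congr 1
    field_simp
  rw [hprod]
  have h : e (-(((n - n' : ℤ) : ℝ) * θ)) = e (-((n : ℝ) * θ)) * e ((n' : ℝ) * θ) := by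
    rw [← e_add]
    congr 1
    push_cast
    ring
  rw [h]
  push_cast
  ring

theorem ker_holds : KERStmt := by
  intro f V q μ ν G y y' M M' hV hq hcop hμ hw hG
  -- right hand side
  have hR : ∑ a ∈ (range q).filter (Nat.Coprime q), Gam f a q *
      Bform (piV ν V) (kern f μ V) (fV ν V G y M 1 0 ((a : ℝ) / q))
        (fV ν V G y' M' 1 0 ((a : ℝ) / q)) =
      ∑ n ∈ Ioc y (y + M), ∑ n' ∈ Ioc y' (y' + M'), ((G n * G n' : ℝ) : ℂ) *
        (cD f q (n - n') * ∏ p ∈ V, (1 + ((μ⁻¹ : ℝ) : ℂ) * cD f p (n - n'))) := by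
    simp only [Bform_eq f V μ ν G y y' M M' hV hw hG, Finset.mul_sum]
    rw [Finset.sum_comm]
    refine Finset.sum_congr rfl fun n _ => ?_
    rw [Finset.sum_comm]
    refine Finset.sum_congr rfl fun n' _ => ?_
    unfold cD
    rw [Finset.sum_mul, Finset.mul_sum]
    refine Finset.sum_congr rfl fun a _ => ?_
    ring
  have hL : ∀ U ∈ V.powerset, ((μ⁻¹ ^ U.card : ℝ) : ℂ) *
      ∑ a ∈ (range (q * ∏ p ∈ U, p)).filter (Nat.Coprime (q * ∏ p ∈ U, p)),
        Gam f a (q * ∏ p ∈ U, p) *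
          (Fw G y M ((a : ℝ) / ((q * ∏ p ∈ U, p : ℕ) : ℝ)) *
            (starRingEnd ℂ) (Fw G y' M' ((a : ℝ) / ((q * ∏ p ∈ U, p : ℕ) : ℝ)))) =
      ∑ n ∈ Ioc y (y + M), ∑ n' ∈ Ioc y' (y' + M'), ((G n * G n' : ℝ) : ℂ) *
        (cD f q (n - n') * ∏ p ∈ U, (((μ⁻¹ : ℝ) : ℂ) * cD f p (n - n'))) := by
    intro U hU
    rw [Finset.mem_powerset] at hU
    simp only [Fw_mul_conj, Finset.mul_sum]
    rw [Finset.sum_comm]
    refine Finset.sum_congr rfl fun n _ => ?_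
    rw [Finset.sum_comm]
    refine Finset.sum_congr rfl fun n' _ => ?_
    rw [Finset.prod_mul_distrib, Finset.prod_const]
    have h := cD_prod f q hq (n - n') U (fun p hp => hV p (hU hp)) (fun p hp => hcop p (hU hp))
    have h2 : cD f q (n - n') * (((μ⁻¹ : ℝ) : ℂ) ^ U.card * ∏ p ∈ U, cD f p (n - n')) =
        ((μ⁻¹ : ℝ) : ℂ) ^ U.card * cD f (q * ∏ p ∈ U, p) (n - n') := by
      rw [h]; ring
    rw [h2]
    unfold cD
    rw [Finset.mul_sum, Finset.mul_sum]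
    refine Finset.sum_congr rfl fun a _ => ?_
    push_cast
    ring
  rw [hR, Finset.sum_congr rfl hL, Finset.sum_comm]
  refine Finset.sum_congr rfl fun n _ => ?_
  rw [Finset.sum_comm]
  refine Finset.sum_congr rfl fun n' _ => ?_
  rw [Finset.prod_one_add, Finset.mul_sum, Finset.mul_sum]

end Vale.Agent.P042.TT.Ker

namespace Vale.Agent.P042.TT

theorem ker_holds : KERStmt := Ker.ker_holds

end Vale.Agent.P042.TT
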