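import Vale.Agent.P042.H584.Crt

set_option autoImplicit false

/-!
Block SUM: Parseval over the classes mod `D` and CORE for each class.
-/

namespace Vale.Agent.P042.TT.SumB

open Finset Vale.Agent.P042.SS

/-- Parseval over the classes mod `D` -/
lemma parseval_classes (I : Finset ℤ) (g : ℤ → ℂ) (D : ℕ) (hD : 1 ≤ D) :
    ∑ b ∈ range D, ‖∑ n ∈ I, g n * e (-((n : ℝ) * ((b : ℝ) / D)))‖ ^ 2 =
      D * ∑ r ∈ range D, ‖∑ n ∈ I.filter (fun n : ℤ => n ≡ (r : ℤ) [ZMOD (D : ℕ)]), g n‖ ^ 2 := by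
  have hD0 : (0 : ℤ) < D := by exact_mod_cast hD
  have nsq : ∀ z : ℂ, ((‖z‖ ^ 2 : ℝ) : ℂ) = z * (starRingEnd ℂ) z := fun z => by
    rw [Complex.mul_conj, Complex.normSq_eq_norm_sq]
  have key : ((∑ b ∈ range D, ‖∑ n ∈ I, g n * e (-((n : ℝ) * ((b : ℝ) / D)))‖ ^ 2 : ℝ) : ℂ) =
      ((D * ∑ r ∈ range D, ‖∑ n ∈ I.filter (fun n : ℤ => n ≡ (r : ℤ) [ZMOD (D : ℕ)]), g n‖ ^ 2 :
        ℝ) : ℂ) := by
    push_cast
    have h1 : ∀ b ∈ range D, ((‖∑ n ∈ I, g n * e (-((n : ℝ) * ((b : ℝ) / D)))‖ : ℝ) : ℂ) ^ 2 =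
        ∑ n ∈ I, ∑ n' ∈ I, g n * (starRingEnd ℂ) (g n') *
          e (((n' - n : ℤ) : ℝ) * ((b : ℝ) / D)) := by
      intro b _
      rw [← Complex.ofReal_pow, nsq, map_sum, Finset.sum_mul_sum]
      refine Finset.sum_congr rfl fun n _ => Finset.sum_congr rfl fun n' _ => ?_
      rw [map_mul, conj_e]
      have : ((n' - n : ℤ) : ℝ) * ((b : ℝ) / D) =
          -((n : ℝ) * ((b : ℝ) / D)) + -(-((n' : ℝ) * ((b : ℝ) / D))) := by
        push_cast; ring
      rw [this, e_add]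
      ring
    have h2 : ∀ r ∈ range D,
        ((‖∑ n ∈ I.filter (fun n : ℤ => n ≡ (r : ℤ) [ZMOD (D : ℕ)]), g n‖ : ℝ) : ℂ) ^ 2 =
        ∑ n ∈ I, ∑ n' ∈ I, if n ≡ (r : ℤ) [ZMOD (D : ℕ)] then
          (if n' ≡ (r : ℤ) [ZMOD (D : ℕ)] then g n * (starRingEnd ℂ) (g n') else 0) else 0 := by
      intro r _
      rw [← Complex.ofReal_pow, nsq, map_sum, Finset.sum_mul_sum, Finset.sum_filter]
      refine Finset.sum_congr rfl fun n _ => ?_
      split_ifs with h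
      · rw [Finset.sum_filter]
      · simp
    have swap : ∀ F : ℕ → ℤ → ℤ → ℂ, ∑ b ∈ range D, ∑ n ∈ I, ∑ n' ∈ I, F b n n' =
        ∑ n ∈ I, ∑ n' ∈ I, ∑ b ∈ range D, F b n n' := by
      intro F
      rw [Finset.sum_comm]
      exact Finset.sum_congr rfl fun n _ => Finset.sum_comm
    rw [Finset.sum_congr rfl h1, Finset.sum_congr rfl h2, swap, swap, Finset.mul_sum]
    refine Finset.sum_congr rfl fun n _ => ?_
    rw [Finset.mul_sum]
    refine Finset.sum_congr rfl fun n' _ => ?_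
    rw [← Finset.mul_sum, echar_orth D hD]
    have h3 : ∀ r ∈ range D, (if n ≡ (r : ℤ) [ZMOD (D : ℕ)] then
          (if n' ≡ (r : ℤ) [ZMOD (D : ℕ)] then g n * (starRingEnd ℂ) (g n') else 0) else 0) =
        if r = (n % (D : ℤ)).toNat then
          (if (D : ℤ) ∣ n' - n then g n * (starRingEnd ℂ) (g n') else 0) else 0 := by
      intro r hr
      rw [Finset.mem_range] at hr
      have hn : n ≡ (r : ℤ) [ZMOD (D : ℕ)] ↔ r = (n % (D : ℤ)).toNat := by
        have hr' : (r : ℤ) % (D : ℤ) = r := Int.emod_eq_of_lt (by positivity) (by exact_mod_cast hr)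
        have hk : (((n % (D : ℤ)).toNat : ℕ) : ℤ) = n % (D : ℤ) :=
          Int.toNat_of_nonneg (Int.emod_nonneg _ hD0.ne')
        unfold Int.ModEq
        rw [hr']
        omega
      by_cases h : n ≡ (r : ℤ) [ZMOD (D : ℕ)]
      · rw [if_pos h, if_pos (hn.1 h)]
        have hn' : n' ≡ (r : ℤ) [ZMOD (D : ℕ)] ↔ (D : ℤ) ∣ n' - n := by
          constructor
          · intro h'
            exact (Int.modEq_iff_dvd.1 (h.trans h'.symm))
          · intro h'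
            exact ((Int.modEq_iff_dvd.2 h').symm).trans h
        simp only [hn']
      · rw [if_neg h, if_neg (fun hh => h (hn.2 hh))]
    rw [Finset.sum_congr rfl h3, Finset.sum_ite_eq']
    have hmem : (n % (D : ℤ)).toNat ∈ range D := by
      rw [Finset.mem_range]
      have hk : (((n % (D : ℤ)).toNat : ℕ) : ℤ) = n % (D : ℤ) :=
        Int.toNat_of_nonneg (Int.emod_nonneg _ hD0.ne')
      have := Int.emod_lt_of_pos n hD0
      omega
    rw [if_pos hmem]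
    split_ifs <;> ring
  exact_mod_cast key

lemma enT_per (ν : ℕ → ℤ → ℝ) (G : ℤ → ℝ) (y : ℤ) (M R : ℕ) (r : ℤ) (T : Finset ℕ) (θ : ℝ)
    (m : ℤ) : enT ν G y M R r (θ + m) T = enT ν G y M R r θ T := by
  unfold enT
  refine Finset.sum_congr rfl fun x _ => ?_
  congr 3
  refine Finset.sum_congr rfl fun n _ => ?_
  congr 1
  have h : -((n : ℝ) * (θ + m)) = -((n : ℝ) * θ) + ((-(n * m) : ℤ) : ℝ) := by
    push_cast; ring
  rw [h, e_add_int]

lemma enT_parseval (ν : ℕ → ℤ → ℝ) (G : ℤ → ℝ) (y : ℤ) (M D : ℕ) (hD : 1 ≤ D) (T : Finset ℕ)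
    (φ : ℝ) :
    ∑ b ∈ range D, enT ν G y M 1 0 ((b : ℝ) / D + φ) T =
      D * ∑ r ∈ range D, enT ν G y M D (r : ℤ) φ T := by
  unfold enT
  rw [Finset.sum_comm, Finset.sum_comm (s := range D), Finset.mul_sum]
  refine Finset.sum_congr rfl fun x _ => ?_
  rw [← Finset.mul_sum, ← Finset.mul_sum, mul_left_comm]
  congr 1
  have key := parseval_classes ((Ioc y (y + M)).filter
    (fun n : ℤ => n ≡ 0 [ZMOD ((1 : ℕ) : ℤ)] ∧ n ≡ (x : ℤ) [ZMOD ((∏ p ∈ T, p : ℕ) : ℤ)]))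
    (fun n => (G n : ℂ) * e (-((n : ℝ) * φ))) D hD
  have h1 : ∀ b ∈ range D, ‖∑ n ∈ (Ioc y (y + M)).filter
      (fun n : ℤ => n ≡ 0 [ZMOD ((1 : ℕ) : ℤ)] ∧ n ≡ (x : ℤ) [ZMOD ((∏ p ∈ T, p : ℕ) : ℤ)]),
        (G n : ℂ) * e (-((n : ℝ) * ((b : ℝ) / D + φ)))‖ ^ 2 =
      ‖∑ n ∈ (Ioc y (y + M)).filter
      (fun n : ℤ => n ≡ 0 [ZMOD ((1 : ℕ) : ℤ)] ∧ n ≡ (x : ℤ) [ZMOD ((∏ p ∈ T, p : ℕ) : ℤ)]),
        (G n : ℂ) * e (-((n : ℝ) * φ)) * e (-((n : ℝ) * ((b : ℝ) / D)))‖ ^ 2 := by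
    intro b _
    congr 2
    refine Finset.sum_congr rfl fun n _ => ?_
    rw [mul_assoc, ← e_add]
    congr 2
    ring
  rw [Finset.sum_congr rfl h1, key]
  congr 1
  refine Finset.sum_congr rfl fun r _ => ?_
  congr 2
  rw [Finset.filter_filter]
  refine Finset.sum_congr (Finset.filter_congr fun n _ => ?_) fun _ _ => rfl
  constructor
  · exact fun h => ⟨h.2, h.1.2⟩
  · refine fun h => ⟨⟨?_, h.2⟩, h.1⟩
    rw [Nat.cast_one]
    exact Int.modEq_one

/-- the sum over the moduli `d q`, `d ∣ D`, of the energies of one family of sub-cells -/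
lemma enT_sum (ν : ℕ → ℤ → ℝ) (G : ℤ → ℝ) (y : ℤ) (M D q : ℕ) (hD : 1 ≤ D) (hq : 1 ≤ q)
    (hc : Nat.Coprime D q) (T : Finset ℕ) :
    ∑ d ∈ D.divisors, ∑ a ∈ (range (d * q)).filter (Nat.Coprime (d * q)),
        enT ν G y M 1 0 ((a : ℝ) / ((d * q : ℕ) : ℝ)) T =
      D * ∑ r ∈ range D, ∑ a ∈ (range q).filter (Nat.Coprime q),
        enT ν G y M D (r : ℤ) ((a : ℝ) / q) T := by
  rw [Crt.crt_div (fun θ => enT ν G y M 1 0 θ T) (fun x n => enT_per ν G y M 1 0 T x n) D q hD hq hc,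
    Finset.sum_comm]
  simp only [enT_parseval ν G y M D hD T]
  rw [← Finset.mul_sum, Finset.sum_comm]

theorem sum_of (h : COREStmt) : SUMStmt := by
  intro k J' hk hJ'
  obtain ⟨C, P0, hC, hcore⟩ := h k J' hk hJ'
  refine ⟨C, max P0 32, hC, ?_⟩
  intro P hP N' Nmin Φ G ν hst V D M y hV hVlog hM hN' hD hDlog hcop
  have hP0 : P0 ≤ P := le_trans (le_max_left _ _) hP
  have hP32 : (32 : ℝ) ≤ P := le_trans (le_max_right _ _) hP
  have hNM : (N' : ℝ) ≤ P * M := by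
    have h1 : (N' : ℝ) ≤ 32 * M := by exact_mod_cast hN'
    have h2 : (32 : ℝ) * M ≤ P * M := mul_le_mul_of_nonneg_right hP32 (Nat.cast_nonneg _)
    linarith
  have hD' : (0 : ℝ) < D := by exact_mod_cast hD
  have hqD : ∀ q ∈ (QZ P J' V (Q2 P)).filter (fun q => Nat.Coprime q D), 1 ≤ q ∧
      Nat.Coprime D q := by
    intro q hq
    rw [Finset.mem_filter] at hq
    refine ⟨?_, hq.2.symm⟩
    have h1 := hq.1
    unfold QZ EV at h1
    rw [Finset.mem_filter, Finset.mem_filter, Finset.mem_Icc] at h1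
    exact h1.1.1.1
  have main : ∑ d ∈ D.divisors, ∑ q ∈ (QZ P J' V (Q2 P)).filter (fun q => Nat.Coprime q D),
      zR P q * ∑ a ∈ (range (d * q)).filter (Nat.Coprime (d * q)),
        tot (t2 P) V ν G y M 1 0 ((a : ℝ) / ((d * q : ℕ) : ℝ)) =
      D * ∑ r ∈ range D, ∑ T ∈ V.powerset, wtR (fun _ => t2 P) V T *
      ∑ q ∈ (QZ P J' V (Q2 P)).filter (fun q => Nat.Coprime q D),
        zR P q * ∑ a ∈ (range q).filter (Nat.Coprime q),
          enT ν G y M D (r : ℤ) ((a : ℝ) / q) T := by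
    rw [Finset.sum_comm]
    have h1 : ∀ q ∈ (QZ P J' V (Q2 P)).filter (fun q => Nat.Coprime q D),
        ∑ d ∈ D.divisors, zR P q * ∑ a ∈ (range (d * q)).filter (Nat.Coprime (d * q)),
          tot (t2 P) V ν G y M 1 0 ((a : ℝ) / ((d * q : ℕ) : ℝ)) =
        ∑ r ∈ range D, ∑ T ∈ V.powerset, D * (wtR (fun _ => t2 P) V T *
          (zR P q * ∑ a ∈ (range q).filter (Nat.Coprime q),
            enT ν G y M D (r : ℤ) ((a : ℝ) / q) T)) := by
      intro q hq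
      obtain ⟨hq1, hqc⟩ := hqD q hq
      rw [← Finset.mul_sum]
      unfold tot
      have h2 : ∀ d ∈ D.divisors, ∑ a ∈ (range (d * q)).filter (Nat.Coprime (d * q)),
          ∑ T ∈ V.powerset, wtR (fun _ => t2 P) V T *
            enT ν G y M 1 0 ((a : ℝ) / ((d * q : ℕ) : ℝ)) T =
          ∑ T ∈ V.powerset, wtR (fun _ => t2 P) V T *
            ∑ a ∈ (range (d * q)).filter (Nat.Coprime (d * q)),
              enT ν G y M 1 0 ((a : ℝ) / ((d * q : ℕ) : ℝ)) T := by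
        intro d _
        rw [Finset.sum_comm]
        exact Finset.sum_congr rfl fun T _ => by rw [Finset.mul_sum]
      rw [Finset.sum_congr rfl h2, Finset.sum_comm]
      have h3 : ∀ T ∈ V.powerset, ∑ d ∈ D.divisors, wtR (fun _ => t2 P) V T *
            ∑ a ∈ (range (d * q)).filter (Nat.Coprime (d * q)),
              enT ν G y M 1 0 ((a : ℝ) / ((d * q : ℕ) : ℝ)) T =
          wtR (fun _ => t2 P) V T * (D * ∑ r ∈ range D, ∑ a ∈ (range q).filter (Nat.Coprime q),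
            enT ν G y M D (r : ℤ) ((a : ℝ) / q) T) := by
        intro T _
        rw [← Finset.mul_sum, enT_sum ν G y M D q hD hq1 hqc T]
      rw [Finset.sum_congr rfl h3, Finset.mul_sum]
      rw [Finset.sum_comm (s := range D)]
      refine Finset.sum_congr rfl fun T _ => ?_
      rw [Finset.mul_sum, Finset.mul_sum, Finset.mul_sum]
      refine Finset.sum_congr rfl fun r _ => ?_
      ring
    rw [Finset.sum_congr rfl h1, Finset.sum_comm, Finset.mul_sum]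
    refine Finset.sum_congr rfl fun r _ => ?_
    rw [Finset.sum_comm, Finset.mul_sum]
    refine Finset.sum_congr rfl fun T _ => ?_
    rw [Finset.mul_sum, Finset.mul_sum]
  rw [main]
  have hb : ∀ r ∈ range D, ∑ T ∈ V.powerset, wtR (fun _ => t2 P) V T *
      ∑ q ∈ (QZ P J' V (Q2 P)).filter (fun q => Nat.Coprime q D),
        zR P q * ∑ a ∈ (range q).filter (Nat.Coprime q),
          enT ν G y M D (r : ℤ) ((a : ℝ) / q) T ≤
      C * (D : ℝ) ^ (C * b2 P) * (M * Φ / D) ^ 2 := fun r _ =>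
    hcore P hP0 N' Nmin Φ G ν hst V D M y r hV hVlog hD hcop hDlog hM hNM
  have hs := Finset.sum_le_sum hb
  rw [Finset.sum_const, Finset.card_range, nsmul_eq_mul] at hs
  refine (mul_le_mul_of_nonneg_left hs hD'.le).trans (le_of_eq ?_)
  field_simp

end Vale.Agent.P042.TT.SumB
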